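import Vale.Agent.P028.Div.Main

namespace Vale.Agent.Results.P028.LogLogDivergence

open MeasureTheory

/-- For every shift and every weight, divergence of the weighted sum with a fixed power of the
iterated logarithm of `1/ψ` removed forces full measure. -/
theorem result (γ : ℝ) (ψ : ℕ → NNReal)
    (hdiv : ¬ Summable (fun q : ℕ =>
      (Nat.totient q : ℝ) / (q : ℝ) * (ψ q : ℝ) /
        (1 + Real.log (1 + Real.log (1 + 1 / (ψ q : ℝ)))) ^ 52)) :
    volume ({x : ℝ | {q : ℕ | 0 < q ∧
      ∃ a : ℤ, |(q : ℝ) * x - (a : ℝ) - γ| < (ψ q : ℝ)}.Infinite}ᶜ) = 0 :=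
  Vale.Agent.P028.Div.full_measure_loglog γ ψ hdiv

end Vale.Agent.Results.P028.LogLogDivergence
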