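import Vale.Agent.P028.Wide.Main

namespace Vale.Agent.Results.P028.PowerDecay

open MeasureTheory

/-- For every shift and every weight, divergence of the weighted sum of `min (ψ q) (q ^ (-η))`
for some positive `η` forces full measure. -/
theorem result (γ : ℝ) (ψ : ℕ → NNReal) (η : ℝ) (hη : 0 < η)
    (hdiv : ¬ Summable (fun q : ℕ =>
      (Nat.totient q : ℝ) / (q : ℝ) * min (ψ q : ℝ) ((q : ℝ) ^ (-η)))) :
    volume ({x : ℝ | {q : ℕ | 0 < q ∧
      ∃ a : ℤ, |(q : ℝ) * x - (a : ℝ) - γ| < (ψ q : ℝ)}.Infinite}ᶜ) = 0 :=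
  Vale.Agent.P028.Wide.full_measure_power γ ψ hη hdiv

end Vale.Agent.Results.P028.PowerDecay
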